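import Vale.Agent.P022D.Rl.Blk
import Vale.Agent.P022F.Rl.Defs
import Vale.Agent.P022F.CA.BlkInf

namespace Vale.Agent.P022F.Rl
export Vale.Agent.P022D.Rl (
  blk row)
end Vale.Agent.P022F.Rl
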