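import Vale.Agent.P022D.Rl.Core
import Vale.Agent.P022F.Rl.Defs
import Vale.Agent.P022F.Rl.Fr

namespace Vale.Agent.P022F.Rl.Dat
export Vale.Agent.P022D.Rl.Dat (
  ff rn_N0 ee c_some θ rn_N θ_some ρ_none g0 x_inj c rn rn_X ρ_x span_le c_eg eqs_inl
  ρ_some q0_prime tr_notMem xe q0 θ_none g1 ρ_C θ_C frob rn_C rn_U ρ eqs_inr c_none)
end Vale.Agent.P022F.Rl.Dat

namespace Vale.Agent.P022F.Rl
export Vale.Agent.P022D.Rl (
  tt mP_map eqU_map card_tt mT_map eqN_map)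
end Vale.Agent.P022F.Rl
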