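import Vale.Agent.P022D.Rl.Loc
import Vale.Agent.P022F.Rl.Core
import Vale.Agent.P022F.Rl.Blk

namespace Vale.Agent.P022F.Rl.Dat
export Vale.Agent.P022D.Rl.Dat (
  red red_m n_zero core unit_det tr_max off_diag red_Φ red_T eqU_mem red_Ram)
end Vale.Agent.P022F.Rl.Dat

namespace Vale.Agent.P022F.Rl
export Vale.Agent.P022D.Rl (
  len_max loc ln_le)
end Vale.Agent.P022F.Rl
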