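import Vale.Agent.P022D.Rl.AsLoc
import Vale.Agent.P022F.Rl.Loc
import Vale.Agent.P022F.Rl.Ch0
import Vale.Agent.P022F.As.Defs

namespace Vale.Agent.P022F.Rl
export Vale.Agent.P022D.Rl (
  charZero_of_coef asLoc)
end Vale.Agent.P022F.Rl

namespace Vale.Agent.P022F.Rl.Dat
export Vale.Agent.P022D.Rl.Dat (
  tl span_fam fam mm mem_ty mm_ty)
end Vale.Agent.P022F.Rl.Dat
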